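import Crest.Agent.X212.Lns95.Lv

/-!
# X212 / LENS (helper4): NECK, the model coframe on the lens neck
-/

open scoped Manifold ContDiff Topology ComplexConjugate InnerProductSpace
open Set Function Filter Complex

set_option autoImplicit false
set_option linter.unusedSectionVars false

noncomputable section
namespace Crest.Agent.X212.Lns4
open Lns95 Sob92 Wz78
open Crest.Agent.R208.F (Ext)
open Glue52 (dir)
open Rod53 (S3' E4 L4)
open Met55 (VF atx pbv)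
open Dr59 (mf)
open Cyf70 (IC ce)
open M (Mf Band)

/-- the coordinates of the chart `b` -/
def TL (b : Bool) : E4 →L[ℝ] ℂ × ℂ :=
  cond b (L4.trans (ContinuousLinearEquiv.prodComm ℝ ℂ ℂ) : E4 ≃L[ℝ] ℂ × ℂ) (L4 : E4 ≃L[ℝ] ℂ × ℂ)

theorem tl_apply (b : Bool) (x : E4) :
    TL b x = cond b (⟨x 2, x 3⟩, ⟨x 0, x 1⟩) (⟨x 0, x 1⟩, ⟨x 2, x 3⟩) := by cases b <;> rfl

theorem th_eq (b : Bool) (y : S3') : Th b y = TL b y := by cases b <;> rfl

theorem th_not (b : Bool) (y : S3') : (Th (!b) y).2 = (Th b y).1 ∧ (Th (!b) y).1 = (Th b y).2 := by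
  cases b <;> exact ⟨rfl, rfl⟩

theorem th_nrm (b : Bool) (y : S3') : ‖(Th b y).1‖ ^ 2 + ‖(Th b y).2‖ ^ 2 = 1 := by
  have := Rod53.norm_L4 y
  rw [norm_eq_of_mem_sphere, one_pow] at this
  cases b
  exacts [this, (add_comm _ _).trans this]

/-- the real pairing -/
def pr (a d : ℂ × ℂ) : ℝ := (a.1 * d.1 + a.2 * d.2).re

theorem gram {κ : Type} [Fintype κ] {ξ : κ → E4} {y : E4} (h : ∀ v w : E4,
    ∑ k, ⟪v, ξ k⟫_ℝ * ⟪w, ξ k⟫_ℝ = ⟪v, w⟫_ℝ - ⟪v, y⟫_ℝ * ⟪w, y⟫_ℝ) (b : Bool) (a a' : ℂ × ℂ) :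
    ∑ k, pr a (TL b (ξ k)) * pr a' (TL b (ξ k)) =
      pr a (conj a'.1, conj a'.2) - pr a (TL b y) * pr a' (TL b y) := by
  let v : ℂ × ℂ → E4 := fun a => cond b !₂[a.2.re, -a.2.im, a.1.re, -a.1.im]
    !₂[a.1.re, -a.1.im, a.2.re, -a.2.im]
  have e : ∀ a x, pr a (TL b x) = ⟪v a, x⟫_ℝ := fun a x => by
    cases b <;> simp [v, pr, tl_apply, PiLp.inner_apply, Fin.sum_univ_four] <;> ring
  have e' : pr a (conj a'.1, conj a'.2) = ⟪v a, v a'⟫_ℝ := by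
    cases b <;> simp [v, pr, PiLp.inner_apply, Fin.sum_univ_four] <;> ring
  simp only [e, e', h]

/-- the coefficients of the round coframe -/
def cf (η : ℂ) (z : ℂ × ℂ) : Fin 4 → ℂ × ℂ :=
  ![0, (-I * conj z.1, -I * conj z.2), (η * z.2, -η * z.1), (-I * η * z.2, I * η * z.1)]

theorem cf_on {η : ℂ} {z : ℂ × ℂ} (hη : ‖η‖ = 1) (hz : ‖z.1‖ ^ 2 + ‖z.2‖ ^ 2 = 1) (i i' : Fin 4) :
    pr (cf η z i) (conj (cf η z i').1, conj (cf η z i').2) - pr (cf η z i) z * pr (cf η z i') z =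
      if i = i' ∧ i ≠ 0 then 1 else 0 := by
  have h1 := nsq η
  rw [hη] at h1
  rw [nsq, nsq] at hz
  fin_cases i <;> fin_cases i' <;> simp [cf, pr] <;>
    first
    | ring1
    | linear_combination hz
    | linear_combination hz - (z.1.re ^ 2 + z.1.im ^ 2 + z.2.re ^ 2 + z.2.im ^ 2) * h1

theorem alg {n : ℕ} (n0 : n ≠ 0) (h : ℝ) {r t : ℝ} (r0 : 0 < r)
    {u w ε η du dw : ℂ} {z d : ℂ × ℂ} (n1 : ‖ε‖ = 1)
    (w0 : w = r * ε) (k1 : lB u du = η * (z.2 * d.1 - z.1 * d.2))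
    (k2 : lD n u w (du, dw) = (t + n * (lm z.1 d.1 + lm z.2 d.2 : ℝ) * (I * r)) * ε) (i : Fin 4) :
    ![(lG n h 1 u w (du, dw)).re, (lG n h 1 u w (du, dw)).im, (lB u du).re, (lB u du).im] i =
      (if i = 0 then 2 * h * r * t else 0) + pr (cf η z i) d := by
  have n0 : (n : ℝ) ≠ 0 := Nat.cast_ne_zero.2 n0
  fin_cases i
  · refine (lG_re ..).trans ?_
    rw [← lr_lD n u, k2, w0, lr_unit n1]
    simp [lr_apply, cf, pr]
    ring
  · refine (lG_im ..).trans ?_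
    rw [lm_lD n0 u (by rw [← norm_pos_iff, w0, norm_mul, n1]; simpa [abs_of_pos r0]), k2, w0, lm_unit n1,
      norm_mul, n1]
    simp [lm_apply, cf, pr, abs_of_pos r0]
    field_simp
  · refine (congrArg re k1).trans ?_
    simp [cf, pr]
    ring
  · refine (congrArg im k1).trans ?_
    simp [cf, pr]
    ring

variable {X : Mf 4} {o : X.M → Ext X.E} {n : ℕ} {B : Band X} {κ : Type} [Fintype κ]
  {e : κ → VF B.Y.I B.Y.M} (L : LB X o n B e) {b : Bool} {y : S3'} {s : ℝ}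

theorem th_ne (hs : s ∈ Ioo (-3 : ℝ) 0) (h : B.j (L.c y, s) ∈ L.D.O b) : (Th b y).2 ≠ 0 := fun h0 => by
  have h1 : (Th (!b) y).2 ≠ 0 := fun k => by
    have := th_nrm b y
    rw [h0, ← (th_not b y).1, k] at this
    simp at this
  obtain ⟨k1, k2, -⟩ := L.band.eq (!b) y s hs h1
  rw [(th_not b y).2, h0, zero_mul] at k2
  refine L.D.ne (!b) _ ?_ k2
  cases b
  exacts [⟨h, k1⟩, ⟨k1, h⟩]

theorem sa_th (b : Bool) (p : S3' × ℝ) : SA (IC (𝓡 3)) (fun p : S3' × ℝ => Th b p.1) p := by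
  simp only [th_eq]
  exact (TL b).contDiff.contDiffAt.comp_contMDiffAt
    ((contMDiff_coe_sphere (n := 3)).comp contMDiff_fst p)

theorem dv_th (b : Bool) (p : S3' × ℝ) {v : EuclideanSpace ℝ (Fin 3) × ℝ} {V : VF (𝓡 3) S3'}
    (hv : v.1 = V p.1) : dv (IC (𝓡 3)) (fun _ => v) (fun p : S3' × ℝ => Th b p.1) p =
      TL b (dv (𝓡 3) V (fun z : S3' => (z : E4)) p.1) := by
  have m : MDifferentiableAt (𝓡 3) 𝓘(ℝ, E4) (fun z : S3' => (z : E4)) p.1 :=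
    (contMDiff_coe_sphere (n := 3) (m := ∞) p.1).mdifferentiableAt (by simp)
  simp only [th_eq]
  exact (dv_clm (TL b) (u := fun p : S3' × ℝ => (p.1 : E4)) (m.comp p mdifferentiableAt_fst)).trans
    (congrArg _ (Met55.dv_rel (f := Prod.fst) (X' := V) mdifferentiableAt_fst
      (by rw [mfderiv_fst]; exact hv) m))

/-- the coframe on a vector of `S³ × ℝ` -/
theorem key (hs : s ∈ Ioo (-3 : ℝ) 0) (hq : B.j (L.c y, s) ∈ L.D.O b) (h : ℝ)
    (V : VF (𝓡 3) S3') (t : ℝ) {a : B.Y.E × ℝ} (ha : a = (mf (𝓡 3) B.Y.I L.c y (V y), t)) (i : Fin 4) :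
    cvG X.I n h 1 (L.D.u b) (L.D.w b) (B.j (L.c y, s)) i (mf (IC B.Y.I) X.I B.j (L.c y, s) a) =
      (if i = 0 then h * deriv L.g s * t else 0) + pr (cf (conj (dir (Th b y).2 : ℂ) ^ 2) (Th b y) i)
        (TL b (dv (𝓡 3) V (fun z : S3' => (z : E4)) y)) := by
  obtain ⟨v, hv, rfl⟩ : ∃ v : EuclideanSpace ℝ (Fin 3) × ℝ, v.1 = V y ∧ v.2 = t := ⟨(V y, t), rfl, rfl⟩
  rw [ha, ← hv]
  have h0 := th_ne L hs hq
  have mc : MDifferentiableAt (𝓡 3) B.Y.I L.c y := (L.ld y).contMDiffAt.mdifferentiableAt (by simp)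
  have mj : MDifferentiableAt (IC B.Y.I) X.I B.j (Prod.map L.c id (y, s)) :=
    (B.oe.contMDiff _).mdifferentiableAt (by simp)
  have mp : MDifferentiableAt (IC (𝓡 3)) (IC B.Y.I) (Prod.map L.c id) (y, s) :=
    mc.prodMap mdifferentiableAt_id
  have e0 : mf (IC B.Y.I) X.I B.j (L.c y, s) (mf (𝓡 3) B.Y.I L.c y v.1, v.2) =
      mf (IC (𝓡 3)) X.I (B.j ∘ Prod.map L.c id) (y, s) v := by
    have := mfderiv_prodMap (p := (y, s)) mc (mdifferentiableAt_id (I := 𝓘(ℝ, ℝ)))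
    rw [mfderiv_id] at this
    rw [Dr59.mf_comp mj mp, show mf (IC (𝓡 3)) (IC B.Y.I) (Prod.map L.c id) (y, s) = _ from this]
    rfl
  have c := L.D.ch b
  rw [e0]
  refine (cvG_comp (f := B.j ∘ Prod.map L.c id) (y := (y, s)) (mj.comp _ mp) (c.su _ hq) (c.sw _ hq)
    n h 1 i v).symm.trans ?_
  have s0 := sa_th b (y, s)
  have s1 : SA (IC (𝓡 3)) (fun p : S3' × ℝ => (Th b p.1).1) (y, s) :=
    contDiffAt_fst.comp_contMDiffAt s0
  have s2 : SA (IC (𝓡 3)) (fun p : S3' × ℝ => (Th b p.1).2) (y, s) :=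
    contDiffAt_snd.comp_contMDiffAt s0
  have g0 := L.band.pos s
  have sg : SA (IC (𝓡 3)) (fun p : S3' × ℝ => √(L.g p.2)) (y, s) :=
    ((L.band.up s trivial).1.sqrt g0.ne').comp_contMDiffAt (f := Prod.snd) (x := (y, s))
      contMDiffAt_snd
  have dg : dv (IC (𝓡 3)) (fun _ => v) (fun p : S3' × ℝ => √(L.g p.2)) (y, s) =
      deriv L.g s / (2 * √(L.g s)) * v.2 := by
    have := dv_comp (I := IC (𝓡 3)) (e := fun _ => v) (u := Prod.snd) (x := (y, s))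
      mdifferentiableAt_snd
      (((L.band.up s trivial).1.differentiableAt (by simp)).hasDerivAt.sqrt g0.ne').hasFDerivAt
    rw [show dv (IC (𝓡 3)) (fun _ => v) Prod.snd (y, s) = v.2 by unfold dv; rw [mfderiv_snd]; rfl] at this
    exact this.trans (mul_comm _ _)
  have ev : ∀ᶠ p : S3' × ℝ in 𝓝 (y, s), p.2 ∈ Ioo (-3 : ℝ) 0 ∧ (Th b p.1).2 ≠ 0 :=
    (continuousAt_snd.eventually (isOpen_Ioo.mem_nhds hs)).and (s2.continuousAt.eventually_ne h0)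
  obtain ⟨k1, k2⟩ := lift (n := n) (u := L.D.u b ∘ B.j ∘ Prod.map L.c id)
    (w := L.D.w b ∘ B.j ∘ Prod.map L.c id) (ρ := fun p => (√(L.g p.2) : ℝ)) s1 s2
    (ofRealCLM.contDiff.contDiffAt.comp_contMDiffAt sg) h0 (.of_forall fun p => th_nrm b p.1)
    (ev.mono fun p k => (L.band.eq b p.1 p.2 k.1 k.2).2.1)
    (ev.mono fun p k => (L.band.eq b p.1 p.2 k.1 k.2).2.2) fun _ => v
  rw [show dv (IC (𝓡 3)) (fun _ => v) (fun p : S3' × ℝ => ((√(L.g p.2) : ℝ) : ℂ)) (y, s) = _ from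
    (dv_ofReal sg _).trans (congrArg _ dg)] at k2
  rw [show dv (IC (𝓡 3)) (fun _ => v) (fun p : S3' × ℝ => (Th b p.1).1) (y, s) = _ from
      (dv_clm (ContinuousLinearMap.fst ℝ ℂ ℂ) s0.md).trans (congrArg Prod.fst (dv_th b (y, s) hv)),
    show dv (IC (𝓡 3)) (fun _ => v) (fun p : S3' × ℝ => (Th b p.1).2) (y, s) = _ from
      (dv_clm (ContinuousLinearMap.snd ℝ ℂ ℂ) s0.md).trans (congrArg Prod.snd (dv_th b (y, s) hv))] at k1 k2
  dsimp only at k1 k2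
  have r0 := Real.sqrt_pos.2 g0
  have := alg L.n0 h r0 (by rw [norm_pow, Circle.norm_coe, one_pow])
    ((L.band.eq b y s hs h0).2.2.trans (by rw [Circle.coe_pow])) k1 k2 i
  refine (show _ = _ by fin_cases i <;> rfl).trans (this.trans ?_)
  congr 2
  field_simp

theorem neck : NeckStmt := by
  rintro X o n B κ _ e L h b ⟨y, s⟩ hs hq
  obtain ⟨y, rfl⟩ := L.sj y
  have h0 := th_ne L hs hq
  refine ⟨?_, fun i => ?_, fun i i' => ?_⟩
  · rw [(L.band.eq b y s hs h0).2.2, norm_mul, Circle.norm_coe, mul_one, norm_real, Real.norm_eq_abs,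
      sq_abs, Real.sq_sqrt (L.band.pos s).le]
  · refine (key L hs hq h (fun _ => 0) 1 (a := atx (ce e) (L.c y, s) none)
      (Prod.ext (map_zero (mf (𝓡 3) B.Y.I L.c y)).symm rfl) i).trans ?_
    rw [Met55.dv_of_eq_zero rfl, map_zero]
    simp [pr]
  · have k := fun i k => key L hs hq h (pbv (𝓡 3) B.Y.I L.c (e k)) 0 (a := atx (ce e) (L.c y, s) (some k))
      (Prod.ext (Met55.pbv_rel (L.ld y) _).symm rfl) i
    simp only [mul_zero, ite_self, zero_add] at k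
    refine (Finset.sum_congr rfl fun a _ => congrArg₂ (· * ·) (k i a) (k i' a)).trans
      ((gram (L.rc y) b _ _).trans ?_)
    rw [← th_eq]
    exact cf_on (by rw [norm_pow, RCLike.norm_conj, Circle.norm_coe, one_pow]) (th_nrm b y) i i'

end Crest.Agent.X212.Lns4
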