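import Crest.Agent.X212.Lns4.Met
import Crest.Agent.X212.Line51.Exl

/-!
# X212 / LENS (helper4): LIN, the base connections of a lens wall
-/

open scoped Manifold ContDiff Topology
open Set Function Filter

set_option autoImplicit false
set_option linter.unusedSectionVars false

noncomputable section
namespace Crest.Agent.X212.Lns4
open Lns95
open Crest.Agent.R208.F (Ext io)
open Glue52 (dir)
open Met55 (VF)
open Pj41 (FSm MSm)
open Line51 (Ln CSm th ang sc dc ji)
open Dr59 (mf pm Sm SmAt Dg ne0)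
open Cyf70 (IC)
open M (Mf Band LBas)

section om
variable {E H : Type} [NormedAddCommGroup E] [NormedSpace ℝ E] [FiniteDimensional ℝ E]
  [TopologicalSpace H] {I : ModelWithCorners ℝ E H} {M : Type} [TopologicalSpace M] [ChartedSpace H M]
  [IsManifold I ∞ M] [I.Boundaryless] {f g u w : M → ℂ} {y : M}

variable (I) in
/-- `Im (conj f df)` -/
def om (f : M → ℂ) : M → Ext E := th I fun y => Matrix.of fun _ _ : Unit => f y

theorem om_eq : om I f y = io (lm (f y) ∘ₗ (dc I f y : E →ₗ[ℝ] ℂ)) :=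
  congrArg io (LinearMap.ext fun v => by simp [Line51.tl_eq_sum, lm_apply]; ring)

theorem smAt_om (hf : FSm I f y) : SmAt I (om I f) y := Line51.smAt_th fun _ _ => hf

theorem om_congr (h : f =ᶠ[𝓝 y] g) : om I f y = om I g y :=
  Line51.th_congr (h.mono fun _ e => by simp only [e])

theorem om_mul (hf : FSm I f y) (hg : FSm I g y) : om I (fun x => f x * g x) y =
    ‖g y‖ ^ 2 • om I f y + ‖f y‖ ^ 2 • om I g y := by
  rw [om_eq, om_eq, om_eq, ← map_smul, ← map_smul, ← map_add]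
  refine congrArg io (LinearMap.ext fun v => ?_)
  have := Line51.dc_mul hf hg v
  simp [this, lm_apply, nsq]
  ring

theorem om_circ {c : M → Circle} (hf : FSm I f y) (hc : CSm I c y) :
    om I (fun x => f x * c x) y = om I f y + ‖f y‖ ^ 2 • ang I c y := by
  rw [om_mul hf (Rod53.cm_coe hc), Circle.norm_coe, one_pow, one_smul]; rfl

theorem om_dir (hf : FSm I f y) (h0 : f y ≠ 0) :
    om I f y = ‖f y‖ ^ 2 • ang I (fun x => dir (f x)) y := by
  have r := Rod53.cm_norm hf h0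
  have := om_circ (f := fun x => (‖f x‖ : ℂ)) (FSm.ofReal r) (Rod53.cm_dir hf h0)
  simp only [Glue52.norm_mul_dir] at this
  rw [this, om_eq, Complex.norm_real, norm_norm, add_eq_right, ← map_zero io]
  refine congrArg io (LinearMap.ext fun v => ?_)
  have := Line51.dc_ofReal r v
  simp [this, lm_apply]

variable [MeasurableSpace E] [BorelSpace E] [MeasurableSpace M] [BorelSpace M]

theorem al_eq (ψ q : ℝ → ℝ) :
    al I ψ q u w y = ψ (‖w y‖ ^ 2) • om I u y + q (‖w y‖ ^ 2) • om I w y := by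
  rw [om_eq, om_eq, al, map_add, map_smul, map_smul]

variable {n : ℕ} (P : Prf n) (μ : ℝ)

theorem smAt_al (hu : FSm I u y) (hw : FSm I w y) : SmAt I (P.al I μ u w) y := by
  have p3 : FSm I (fun y => P.p3 (‖w y‖ ^ 2)) y :=
    (P.s3 _ (sq_nonneg _)).comp_contMDiffAt (f := fun y => ‖w y‖ ^ 2) (sa_nsq hw)
  refine (((smAt_om hu).fsmul le_rfl (g := fun y => μ * (n + ‖w y‖ ^ 2 * P.p3 (‖w y‖ ^ 2)))
    (FSm.mul' contMDiffAt_const (contMDiffAt_const.add (FSm.mul' (sa_nsq hw) p3)))).add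
    ((smAt_om hw).fsmul le_rfl (g := fun y => μ * P.p3 (‖w y‖ ^ 2) * (n : ℝ)⁻¹)
      ((FSm.mul' contMDiffAt_const p3).mul' contMDiffAt_const))).congr (.of_forall fun x => ?_)
  exact al_eq _ _

/-- where the profile is flat -/
theorem al_flat (n0 : n ≠ 0) (hw : FSm I w y) (h0 : w y ≠ 0) (h : P.f1 (‖w y‖ ^ 2) = 0) :
    P.al I μ u w y = -μ • ang I (fun x => dir (w x)) y := by
  have p : 0 < ‖w y‖ ^ 2 := by positivity
  rw [P.ef1 _ p] at h
  rw [Prf.al, al_eq, h, mul_zero, zero_smul, zero_add, om_dir hw h0, smul_smul]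
  congr 1
  have : (n : ℝ) ≠ 0 := Nat.cast_ne_zero.2 n0
  field_simp
  linear_combination μ * h

/-- the change of charts -/
theorem al_chg {o : M → Ext E} {N : Set M} (D : Dsc I o n N) (n0 : n ≠ 0)
    (hy : y ∈ D.O false ∩ D.O true) : P.al I μ (D.u true) (D.w true) y =
      P.al I μ (D.u false) (D.w false) y - (μ * n) • ang I (fun x => dir (D.u false x)) y := by
  have nb := ((D.ch false).op.inter (D.ch true).op).mem_nhds hy
  have su := (D.ch false).su y hy.1
  have c := Rod53.cm_dir su (D.ne false y hy)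
  have e1 : ang I (fun x => dir (D.u true x)) y = -ang I (fun x => dir (D.u false x)) y :=
    (Line51.ang_congr (eventually_of_mem nb D.du)).trans (Line51.ang_inv c)
  have e2 : om I (D.w true) y = om I (D.w false) y +
      ‖D.w false y‖ ^ 2 • (n : ℝ) • ang I (fun x => dir (D.u false x)) y := by
    rw [← Line51.ang_pow c]
    exact (om_congr (eventually_of_mem nb D.tw)).trans (om_circ ((D.ch false).sw y hy.1) (c.pow n))
  have e3 : ‖D.u true y‖ ^ 2 = 1 - ‖D.u false y‖ ^ 2 := eq_sub_of_add_eq' (D.nrm y hy)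
  have : (n : ℝ) ≠ 0 := Nat.cast_ne_zero.2 n0
  rw [Prf.al, al_eq, al_eq, D.nw hy, e2, om_dir su (D.ne false y hy),
    om_dir ((D.ch true).su y hy.2) (D.ne true y hy), e1, e3]
  match_scalars
  · field_simp; ring
  · ring

end om

theorem pm_ji_j {X : Mf 4} (B : Band X) (a : X.M → Ext X.E) (q : B.Y.M × ℝ) :
    pm X.I (IC B.Y.I) (ji B) (pm (IC B.Y.I) X.I B.j a) (B.j q) = a (B.j q) := by
  rw [Dr59.pm_comp ((B.oe.contMDiff _).mdifferentiableAt ne0)
    ((Line51.cm_ji B q).mdifferentiableAt ne0)]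
  refine Dr59.pm_of_eventually_id (eventually_of_mem (B.oe.isOpen_range.mem_nhds ⟨q, rfl⟩) ?_) _
  rintro _ ⟨p, rfl⟩
  exact congrArg B.j (Line51.ji_j B p)

theorem lin : LinStmt := by
  classical
  intro X o n B κ _ e L lam _ p k nA S hs hd
  have n0 : (n : ℝ) ≠ 0 := Nat.cast_ne_zero.2 L.n0
  let A : Bool → Bool → X.M → Ext X.E := fun σ b =>
    L.P.al X.I (-(k σ) / n) (L.D.u b) (L.D.w b) - th X.I ((S.S σ).s b)
  let N : X.M → Ext X.E := pm X.I (IC B.Y.I) (ji B) nA
  let g : Bool → X.M → Ext X.E := fun σ y => if y ∈ L.D.O false then A σ false y else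
    if y ∈ L.D.O true then A σ true y else N y
  have w0 : ∀ b q, B.j q ∈ L.D.O b → L.D.w b (B.j q) ≠ 0 := fun b q h e =>
    (L.band.hi b q h).not_gt (by simpa [e] using L.band.pos q.2)
  have fl : ∀ σ b q, B.j q ∈ L.D.O b → A σ b (B.j q) = (k σ / n : ℝ) •
      ang X.I (fun x => dir (L.D.w b x)) (B.j q) - th X.I ((S.S σ).s b) (B.j q) := fun σ b q h => by
    refine congrArg (· - _) ((al_flat L.P _ L.n0 ((L.D.ch b).sw _ h) (w0 b q h)
      (L.fl q.2 _ (L.band.hi b q h)).2.1).trans ?_)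
    rw [neg_div, neg_neg]
  have g1 : ∀ σ b, ∀ y ∈ L.D.O b, g σ y = A σ b y := fun σ b y hy => by
    cases b
    · exact if_pos hy
    by_cases h : y ∈ L.D.O false
    · have c := Rod53.cm_dir ((L.D.ch false).su y h) (L.D.ne false y ⟨h, hy⟩)
      have e1 := (Line51.th_congr (I := X.I) (eventually_of_mem
        (((L.D.ch false).op.inter (L.D.ch true).op).mem_nhds ⟨h, hy⟩) (S.S σ).tr)).trans
        (Line51.th_trans (Line51.msm_sc (Rod53.cm_zpow c (k σ))) (((S.S σ).uni false).sm y h)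
          (Line51.piso_sc _ _) (((S.S σ).uni false).iso y h))
      have e2 : th X.I (sc fun y => dir (L.D.u false y) ^ k σ) y = _ := Line51.ang_zpow c (k σ)
      refine (if_pos h).trans ?_
      simp only [A, Pi.sub_apply]
      rw [e1, e2, al_chg L.P _ L.D L.n0 ⟨h, hy⟩, div_mul_cancel₀ _ n0, neg_smul]
      abel
    · exact (if_neg h).trans (if_pos hy)
  have g0 : ∀ σ y, (¬ ∃ b, y ∈ L.D.O b) → g σ y = N y := fun σ y h =>
    (if_neg fun e => h ⟨_, e⟩).trans (if_neg fun e => h ⟨_, e⟩)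
  have g2 : ∀ σ (q : B.Y.M × ℝ), -3 < q.2 → g σ (B.j q) = N (B.j q) := fun σ q hq => by
    by_cases h : ∃ b, B.j q ∈ L.D.O b
    · obtain ⟨b, h⟩ := h
      have m := (B.oe.contMDiff q).mdifferentiableAt ne0
      have e1 := (S.S σ).band b q ⟨hq, j_neg.1 (L.D.sub b h)⟩ h
      rw [g1 σ b _ h, ← pm_ji_j B (A σ b) q]
      refine Dr59.pm_congr_right ?_
      rw [Line51.ji_j, Dr59.pm_congr_right (b := (k σ / n : ℝ) • ang X.I (fun x => dir (L.D.w b x)) -
        th X.I ((S.S σ).s b)) (fl σ b q h), Dr59.pm_sub, Dr59.pm_smul, Pi.sub_apply, Pi.smul_apply,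
        Line51.pm_th (((S.S σ).uni b).sm _ h) m,
        Line51.pm_ang (Rod53.cm_dir ((L.D.ch b).sw _ h) (w0 b q h)) m]
      exact sub_eq_of_eq_add' e1.symm
    · exact g0 σ _ h
  have sg : ∀ σ x, SmAt X.I (tau B • g σ) x := fun σ x => by
    rcases lt_or_ge (B.s x) 3 with h | h
    · refine Dr59.CAt.fsmul le_rfl (sm_tau B x) ?_
      rcases s_cases h with h | h
      · obtain ⟨b, h⟩ := (L.D.cov x).1 h
        exact ((smAt_al L.P _ ((L.D.ch b).su x h) ((L.D.ch b).sw x h)).sub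
          (Line51.smAt_th (((S.S σ).uni b).sm x h))).congr
          (eventually_of_mem ((L.D.ch b).op.mem_nhds h) (g1 σ b))
      · refine (hs.pm (Line51.mp_ji B _) x h).congr
          (eventually_of_mem ((B.isOpen_slab isOpen_Ioo).mem_nhds h) ?_)
        rintro _ ⟨q, hq, rfl⟩
        exact g2 σ q hq.2.1
    · exact Dr59.cAt_zero.congr ((tau_ev h).mono fun y e => by simp [e])
  have dg : ∀ σ, Dg 1 univ (tau B • g σ) := fun σ => Dg.fsmul _ fun x _ => by
    by_cases h : ∃ b, x ∈ L.D.O b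
    · obtain ⟨b, h⟩ := h
      rw [g1 σ b x h]
      exact Dg.sub (U := univ) (fun _ _ => Dr59.isDeg_io _) (Line51.dg_th _) x trivial
    · rw [g0 σ x h]
      exact hd.pm (mapsTo_univ _ univ) x trivial
  refine ⟨fun σ => ⟨fun _ => tau B • g σ, fun _ x _ => sg σ x, fun _ => dg σ, fun _ x _ v hv =>
    .of_fixed (Line51.fsm_e1 (sg σ x) (.of_forall fun y => dg σ y trivial) hv)⟩, fun _ _ => rfl,
    fun σ b => ⟨(S.S σ).uni b, fun x hx => ?_⟩, fun σ q h1 h2 => ?_, fun x hx => ?_⟩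
  · show _ + tau B x • g σ x = L.P.al X.I _ _ _ x
    rw [tau_one ((s_neg.1 (L.D.sub b hx)).le.trans zero_le_one), one_smul, g1 σ b x hx]
    simp only [A, Pi.sub_apply, add_sub_cancel]
  · refine (Dr59.pm_congr_right ?_).trans (Line51.pm_j_ji B nA q)
    show tau B _ • g σ _ = _
    rw [tau_one (by rw [B.s_j_of_le (abs_le.2 ⟨h1.le, by linarith⟩)]; exact h2), one_smul, g2 σ q h1]
  · refine show tau B x • g true x = tau B x • g false x from congrArg _ ?_
    by_cases h : ∃ b, x ∈ L.D.O b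
    · obtain ⟨b, h⟩ := h
      obtain ⟨q, rfl⟩ := hx.resolve_left fun e => disjoint_left.1 B.wall.dj e (L.D.sub b h)
      have c := Rod53.cm_dir ((L.D.ch b).sw _ h) (w0 b q h)
      have e0 : (S.S true).s b =ᶠ[𝓝 (B.j q)]
          fun y => (S.S false).s b y * sc (fun y => dir (L.D.w b y) ^ S.i) y := by
        filter_upwards [(L.D.ch b).op.mem_nhds h, B.oe.isOpen_range.mem_nhds ⟨q, rfl⟩]
        rintro _ a ⟨q', rfl⟩
        exact S.rel b q' (j_neg.1 (L.D.sub b a)) a
      have e1 := (Line51.th_congr (I := X.I) e0).trans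
        (Line51.th_trans (Line51.msm_sc (Rod53.cm_zpow c S.i)) (((S.S false).uni b).sm _ h)
          (Line51.piso_sc _ _) (((S.S false).uni b).iso _ h))
      have e2 : th X.I (sc fun y => dir (L.D.w b y) ^ S.i) (B.j q) = _ := Line51.ang_zpow c S.i
      rw [g1 _ b _ h, g1 _ b _ h, fl _ b q h, fl _ b q h, e1, e2, S.hk]
      push_cast
      rw [add_div, mul_div_cancel_right₀ _ n0, add_smul]
      abel
    · rw [g0 _ x h, g0 _ x h]

end Crest.Agent.X212.Lns4
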