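import Crest.Agent.X212.Lns95.Mod

/-!
# X212 / LENS (helper4): MET, the base metric of a lens wall
-/

open scoped Manifold ContDiff Topology Matrix
open Set Function Filter

set_option autoImplicit false
set_option linter.unusedSectionVars false

noncomputable section
namespace Crest.Agent.X212.Lns4
open Lns95 Sob92 Wz78
open Crest.Agent.R208.F (Ext)
open Met55 (VF VAt FAt Co Sp atx pfv mixF cF)
open Pj41 (FSm MSm)
open Line51 (fsm_re fsm_im)
open Dr59 (mf)
open Cyf70 (IC ce)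
open M (Mf Band Bas)

section cut
variable {X : Mf 4} (B : Band X)

/-- the cut-off: `1` for `s ≤ 1`, `0` for `s ≥ 2` -/
def tau (x : X.M) : ℝ := Real.smoothTransition (2 - B.s x)

theorem sm_tau (x : X.M) : FSm X.I (tau B) x :=
  Real.smoothTransition.contDiffAt.comp_contMDiffAt (contMDiffAt_const.sub (B.contMDiff_s x))

variable {B} {x : X.M}

theorem tau_one (h : B.s x ≤ 1) : tau B x = 1 :=
  Real.smoothTransition.one_of_one_le (by linarith)

theorem tau_zero (h : 2 ≤ B.s x) : tau B x = 0 :=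
  Real.smoothTransition.zero_of_nonpos (by linarith)

theorem tau_ev (h : 3 ≤ B.s x) : ∀ᶠ y in 𝓝 x, tau B y = 0 :=
  ((B.contMDiff_s x).continuousAt.eventually (lt_mem_nhds (show 2 < B.s x by linarith))).mono
    fun _ k => tau_zero k.le

theorem s_neg : x ∈ B.wall.sd false ↔ B.s x < 0 := by simp [B.mem_sd, M.pm]

theorem j_neg {q : B.Y.M × ℝ} : B.j q ∈ B.wall.sd false ↔ q.2 < 0 := by simp [B.j_mem_sd, M.pm]

theorem s_cases (h : B.s x < 3) : x ∈ B.wall.sd false ∨ x ∈ B.slab (Ioo (-3) 3) := by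
  rcases lt_or_ge (B.s x) 0 with k | k
  · exact Or.inl (s_neg.2 k)
  · exact Or.inr (by_contra fun n => (B.three_le_abs_s n).not_gt (abs_lt.2 ⟨by linarith, h⟩))

end cut

section chart
variable {E H : Type} [NormedAddCommGroup E] [NormedSpace ℝ E] [FiniteDimensional ℝ E]
  [MeasurableSpace E] [BorelSpace E] [TopologicalSpace H] {I : ModelWithCorners ℝ E H} {M : Type}
  [TopologicalSpace M] [ChartedSpace H M] [IsManifold I ∞ M] [I.Boundaryless] [MeasurableSpace M]
  [BorelSpace M] [SecondCountableTopology M] {o : M → Ext E} {n : ℕ} {O : Set M} {u w : M → ℂ} {y : M}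
  {ι : Type} [Fintype ι]

theorem sa_lm {f g : M → ℂ} (hf : FSm I f y) (hg : FSm I g y) : FSm I (fun y => lm (f y) (g y)) y := by
  simp only [lm_apply]
  exact ((fsm_re hf).mul' (fsm_im hg)).sub ((fsm_im hf).mul' (fsm_re hg))

theorem sa_lr {f g : M → ℂ} (hf : FSm I f y) (hg : FSm I g y) : FSm I (fun y => lr (f y) (g y)) y := by
  simp only [lr_apply]
  exact ((fsm_re hf).mul' (fsm_re hg)).add ((fsm_im hf).mul' (fsm_im hg))

variable (I) in
/-- the coframe of a chart -/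
def cvP (P : Prf n) (u w : M → ℂ) (y : M) : Fin 4 → E →ₗ[ℝ] ℝ :=
  cvF I n (P.p1 (‖w y‖ ^ 2)) (P.p2 (‖w y‖ ^ 2)) u w y

/-- the dual frame -/
def dl (P : Prf n) (u w : M → ℂ) (r : ι → VF I M) : Fin 4 → VF I M :=
  mixF (fun y => (gr (cvP I P u w y) (atx r y) * (gr (cvP I P u w y) (atx r y))ᵀ)⁻¹ *
    gr (cvP I P u w y) (atx r y)) r

variable (C : Ch I o O u w) (P : Prf n) (h4 : Module.finrank ℝ E = 4) {r : ι → VF I M}
  (hr : FAt r y) (hy : y ∈ O)
include C hr hy

theorem msm_gr : MSm I (fun y => gr (cvP I P u w y) (atx r y)) y := fun i a => by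
  have hu := C.su y hy
  have hw := C.sw y hy
  have du := dv_smoothAt (hr.sm a) hu
  have dw := dv_smoothAt (hr.sm a) hw
  have p1 : FSm I (fun y => P.p1 (‖w y‖ ^ 2)) y :=
    (P.s1 _ (sq_nonneg _)).comp_contMDiffAt (f := fun y => ‖w y‖ ^ 2) (sa_nsq hw)
  have p2 : FSm I (fun y => P.p2 (‖w y‖ ^ 2)) y :=
    (P.s2 _ (sq_nonneg _)).comp_contMDiffAt (f := fun y => ‖w y‖ ^ 2) (sa_nsq hw)
  have s1 : FSm I (fun y => sq1 (u y)) y := sa_sq1 hu (C.lt y hy)
  have a1 : FSm I (fun y => lF n (P.p1 (‖w y‖ ^ 2)) (P.p2 (‖w y‖ ^ 2)) (u y) (w y)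
      (dv I (r a) u y, dv I (r a) w y)) y := by
    simp only [lF_apply]
    exact (p1.ofReal.mul' (dw.add ((FSm.mul' contMDiffAt_const (sa_lm hu du).ofReal).mul'
      (FSm.mul' contMDiffAt_const hw)))).add
      (((FSm.mul' contMDiffAt_const p2.ofReal).mul' (sa_lr hw dw).ofReal).mul' hw)
  have a2 : FSm I (fun y => lB (u y) (dv I (r a) u y)) y := by
    simp only [lB_apply, div_eq_mul_inv]
    exact (s1.ofReal.mul' du).add
      (((sa_lr hu du).mul' (s1.inv' (sq1_pos (C.lt y hy)).ne')).ofReal.mul' hu)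
  fin_cases i
  exacts [fsm_re a1, fsm_im a1, fsm_re a2, fsm_im a2]

include h4

theorem det_cv : (gr (cvP I P u w y) (atx r y) * (gr (cvP I P u w y) (atx r y))ᵀ).det ≠ 0 :=
  det_gr h4 hr.sp ((tp_lF h4 _ _ (C.lt y hy) ..).trans_ne (mul_ne_zero (mul_pos (P.pos1 _ (sq_nonneg _))
    (P.pos2 _ (sq_nonneg _))).ne' (right_ne_zero_of_mul (C.tp hy).ne')))

theorem onv_dl : Onv (cvP I P u w y) (atx (dl P u w r) y) := onv_dual (det_cv C P h4 hr hy)

theorem fAt_dl : FAt (dl P u w r) y :=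
  have m := msm_gr C P hr hy
  ⟨Met55.vAt_mixF (((m.mul m.transpose).inv (det_cv C P h4 hr hy)).mul m) hr.sm,
    (onv_dl C P h4 hr hy).sp h4⟩

omit C hr hy h4 in
theorem onG (n0 : n ≠ 0) (h0 : w y ≠ 0) {v : ι → E} (h : Onv (cvP I P u w y) v) :
    Onv (cvG I n (P.H (‖w y‖ ^ 2)) (P.f (‖w y‖ ^ 2)) u w y) v := by
  have p : 0 < ‖w y‖ ^ 2 := by positivity
  rw [P.eH _ p, P.ef _ p, Real.sqrt_sq (norm_nonneg _)]
  exact onG_of_onF (Nat.cast_ne_zero.2 n0) h0 h

end chart

theorem met (hN : NeckStmt) : MetStmt := by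
  classical
  intro X _ o n B κ _ F L
  obtain ⟨N, r, hr⟩ := Met55.exists_frame (I := X.I) (M := X.M)
  let K : Bool → Fin 4 → VF X.I X.M := fun b => dl L.P (L.D.u b) (L.D.w b) r
  let K' : Option κ → VF X.I X.M := fun i => pfv (IC B.Y.I) X.I B.j (ce F.e i)
  have ho := fun b y hy => onv_dl (L.D.ch b) L.P X.dim (hr y) hy
  have fK := fun b y hy => fAt_dl (L.D.ch b) L.P X.dim (hr y) hy
  have fK' : ∀ q, FAt K' (B.j q) := fun q => FAt.pfv B.oe
    ⟨fun a => Cyf70.ce_sm F.sm a q, Met55.sp_iff.2 (Cyf70.ce_span F.span q)⟩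
  have aK' : ∀ q, atx K' (B.j q) = fun i => mf (IC B.Y.I) X.I B.j q (atx (ce F.e) q i) :=
    fun q => funext fun i => (Met55.pfv_rel B.oe.inj _ q).symm
  let k : Fin N → VF X.I X.M := fun i y => if y ∈ L.D.O false then cF r (K false) i y else
    if y ∈ L.D.O true then cF r (K true) i y else cF r K' i y
  have k1 : ∀ b, ∀ y ∈ L.D.O b, ∀ i, k i y = cF r (K b) i y := fun b y hy i => by
    cases b
    · exact if_pos hy
    by_cases h : y ∈ L.D.O false
    · refine (if_pos h).trans (Met55.cF_congr (fun _ => rfl) ((ho true y hy).co X.dim ?_) i)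
      have := ho false y h
      rw [cvP, ← L.D.nw ⟨h, hy⟩] at this
      exact (L.D.onF ⟨h, hy⟩).2 this
    · exact (if_neg h).trans (if_pos hy)
  have k2 : ∀ q : B.Y.M × ℝ, -3 < q.2 → ∀ i, k i (B.j q) = cF r K' i (B.j q) := fun q hq i => by
    by_cases h : ∃ b, B.j q ∈ L.D.O b
    · obtain ⟨b, h⟩ := h
      have h1 : q.2 < 0 := j_neg.1 (L.D.sub b h)
      obtain ⟨a1, a2, a3⟩ := hN X o n B κ F.e L (L.P.H (L.g q.2)) b q ⟨hq, h1⟩ h
      have a4 := onG L.P L.n0 (fun e => (L.band.pos q.2).ne (by rw [← a1, e]; simp)) (ho b _ h)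
      rw [a1, (L.fl q.2 _ le_rfl).1] at a4
      refine (k1 b _ h i).trans (Met55.cF_congr (fun _ => rfl) (Onv.co ?_ X.dim a4) i)
      intro i i'
      rw [M.cm, aK', Fintype.sum_option, a2, a2, a3, L.hH q.2 ⟨hq.le, h1.le⟩]
      by_cases e : i = i' <;> by_cases e' : i = 0 <;> simp_all [eq_comm]
    · exact (if_neg fun e => h ⟨_, e⟩).trans (if_neg fun e => h ⟨_, e⟩)
  have fk : ∀ x, B.s x < 3 → FAt k x := fun x hx => by
    rcases s_cases hx with h | h
    · obtain ⟨b, h⟩ := (L.D.cov x).1 h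
      exact ((hr x).cF (fK b x h) (.of_forall fun _ => .refl _)).congr
        (eventually_of_mem ((L.D.ch b).op.mem_nhds h) (k1 b))
    · refine FAt.congr (e := cF r K') ?_ (eventually_of_mem ((B.isOpen_slab isOpen_Ioo).mem_nhds h) ?_)
      · obtain ⟨q, -, rfl⟩ := h
        exact (hr _).cF (fK' q) (.of_forall fun _ => .refl _)
      · rintro _ ⟨q, hq, rfl⟩
        exact k2 q hq.2.1
  let R : Fin (N + N) → VF X.I X.M := fun i => Sum.elim (fun a y => tau B y • k a y)
    (fun a y => (1 - tau B y) • r a y) (finSumFinEquiv.symm i)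
  have R1 : ∀ a x, atx R x (finSumFinEquiv (.inl a)) = tau B x • atx k x a := fun a x => by
    simp only [R, atx, Equiv.symm_apply_apply]; rfl
  have R2 : ∀ a x, atx R x (finSumFinEquiv (.inr a)) = (1 - tau B x) • atx r x a := fun a x => by
    simp only [R, atx, Equiv.symm_apply_apply]; rfl
  have co : ∀ x, B.s x ≤ 1 → Co (atx k x) (atx R x) := fun x hx α β => by
    rw [← finSumFinEquiv.sum_comp, Fintype.sum_sum_type]
    simp only [R1, R2, tau_one hx]
    simp
  have sm : ∀ x i, VAt X.I (R i) x := fun x i => by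
    obtain ⟨a | a, rfl⟩ := finSumFinEquiv.surjective i <;> simp only [R, Equiv.symm_apply_apply,
      Sum.elim_inl, Sum.elim_inr]
    · rcases lt_or_ge (B.s x) 3 with h | h
      · exact ((fk x h).sm a).smul (sm_tau B x)
      · exact VAt.zero.congr ((tau_ev h).mono fun y e => by rw [e, zero_smul])
    · exact ((hr x).sm a).smul (contMDiffAt_const.sub (sm_tau B x))
  have sp : ∀ x, Sp (atx R x) := fun x => by
    by_cases h : tau B x = 0
    · exact (hr x).sp.of_range fun a => ⟨1, finSumFinEquiv (.inr a), by rw [R2]; simp [h]⟩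
    · exact (fk x (lt_of_not_ge fun e => h (tau_zero (by linarith)))).sp.of_range fun a =>
        ⟨(tau B x)⁻¹, finSumFinEquiv (.inl a), by rw [R1, inv_smul_smul₀ h]⟩
  refine ⟨⟨N + N, fun _ => R, fun _ x _ i => .of_fixed (sm x i), fun _ x _ => sp x⟩, fun _ => rfl,
    fun b y hy h0 => onG L.P L.n0 h0 (((ho b y hy).of_co ?_).of_co
      (co y ((s_neg.1 (L.D.sub b hy)).le.trans zero_le_one))), fun q h1 h2 => ?_⟩
  · rw [show atx k y = atx (cF r (K b)) y from funext (k1 b y hy)]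
    exact (Met55.co_cF (hr y).sp (fK b y hy).sp).symm
  · refine Co.trans ?_ (co _ (by rw [B.s_j_of_le (abs_le.2 ⟨h1.le, by linarith⟩)]; exact h2))
    rw [← aK', show atx k (B.j q) = atx (cF r K') (B.j q) from funext (k2 q h1)]
    exact (Met55.co_cF (hr _).sp (fK' q).sp).symm

end Crest.Agent.X212.Lns4
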